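import Mathlib
import Vale.Agent.P196.Quant
import Vale.Agent.P186q.Cor

open scoped Pointwise

namespace Vale.Agent.P186q

open Vale.Agent.P196

universe u v

section

variable {G : Type u} [Group G]

/-- **Schreier growth gap** for finitely presented groups without nontrivial finite quotients. -/
theorem growth_gap [Group.IsFinitelyPresented G] [NoFin G]
    (S : Set G) (hSf : S.Finite) (hS : Subgroup.closure S = ⊤) :
    ∃ c : ℝ, 0 < c ∧ ∃ N : ℕ, ∀ (X : Type v) [MulAction G X] (x : X), (∃ g : G, g • x ≠ x) →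
      ∀ n : ℕ, N ≤ n →
        c * n * (Real.log n / Real.log (Real.log n)) ≤ (ball S x n).ncard := by
  obtain ⟨L, β, D, hL, hβ, hD, h⟩ := quant_nat.{u, v} S hSf hS
  have hL' : (1 : ℝ) ≤ L := by exact_mod_cast hL
  have hβ' : (1 : ℝ) ≤ β := by exact_mod_cast hβ
  refine ⟨1 / (8 * β * L), by positivity, max 16 (max (16 * D ^ 2) (2 * L)), ?_⟩
  intro X _ x hx n hn
  have hn1 : 16 ≤ n := (le_max_left _ _).trans hn
  have hn2 : 16 * D ^ 2 ≤ n := ((le_max_left _ _).trans (le_max_right _ _)).trans hn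
  have hn3 : 2 * L ≤ n := ((le_max_right _ _).trans (le_max_right _ _)).trans hn
  have : Infinite ↥(MulAction.orbit G x) := (infinite_orbit x hx).to_subtype
  set s := ⌊(Real.log n / Real.log (Real.log n)) / (2 * β)⌋₊ with hs
  have h1 := h ↥(MulAction.orbit G x) ⟨x, MulAction.mem_orbit_self x⟩
    (fun Y hY f => by
      have : Finite ↥Y := hY.to_subtype
      exact no_finite_action f) s n hn3 (log_estimate β D n hβ hn1 hn2)
  have h2 : (ball S (⟨x, MulAction.mem_orbit_self x⟩ : ↥(MulAction.orbit G x)) n).ncard =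
      (ball S x n).ncard := by
    rw [← Set.ncard_image_of_injective _ Subtype.val_injective]
    congr 1
    ext y
    constructor
    · rintro ⟨_, ⟨l, hl, hl', rfl⟩, rfl⟩
      exact ⟨l, hl, hl', rfl⟩
    · rintro ⟨l, hl, hl', rfl⟩
      exact ⟨_, ⟨l, hl, hl', rfl⟩, rfl⟩
  rw [h2] at h1
  have h3 : ((s : ℝ) + 1) * n ≤ 4 * (L * ((ball S x n).ncard : ℝ)) := by exact_mod_cast h1
  have h4 : (Real.log n / Real.log (Real.log n)) / (2 * β) ≤ (s : ℝ) + 1 := (Nat.lt_floor_add_one _).le
  have h5 : (Real.log n / Real.log (Real.log n)) / (2 * β) * n ≤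
      4 * (L * ((ball S x n).ncard : ℝ)) :=
    (mul_le_mul_of_nonneg_right h4 (Nat.cast_nonneg n)).trans h3
  have h6 : 1 / (8 * β * L) * n * (Real.log n / Real.log (Real.log n)) =
      ((Real.log n / Real.log (Real.log n)) / (2 * β) * n) / (4 * L) := by
    field_simp
    ring
  rw [h6, div_le_iff₀ (by positivity)]
  linarith

end

end Vale.Agent.P186q
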